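import Vale.Agent.Lib.P043.M1
import Vale.Agent.Lib.P043.M1b
import Vale.Agent.Lib.P043.M2
import Vale.Agent.Lib.P043.M3
import Vale.Agent.Lib.P043.M4
import Vale.Agent.Lib.P043.M5
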